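import Vale.Agent.P281.H364.V.Fib
import Vale.Agent.P281.H64.TW.StatQ
import Vale.Agent.P281.H64.TV.Refl

/-! P281 (helper364): a fibration over a curve is a neat model of itself. -/

open Set Filter Vale.Agent.P281
open Vale.Agent.P281.H713.TZ.S (Cm)
open Vale.Agent.P281.H511.Surf (IsFibration)
open Vale.Agent.P281.H64.TW (HasNeatModel)
open scoped Topology ContDiff Manifold

namespace Vale.Agent.P281.H364.V

/-- **Neat models over a curve**: nothing to be done. -/
theorem neat1 {n p : ℕ} {X Y : Type} [TopologicalSpace X] [ChartedSpace (Cm n) X]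
    [TopologicalSpace Y] [ChartedSpace (Cm p) Y] {f : X → Y} {Δ : Set X → ℝ}
    (h : IsFibration (Cm n) (Cm p) f Δ) (hp : p = 1) : HasNeatModel n p f Δ := by
  subst hp
  exact ⟨X, Y, inferInstance, inferInstance, inferInstance, inferInstance, f, Δ,
    ⟨h, Vale.Agent.P281.H64.StatV.isStep_refl h⟩, Or.inl (noExc_fib h)⟩

/-- the same, with the condition as it is in the statements -/
theorem neat_or {n p : ℕ} {X Y : Type} [TopologicalSpace X] [ChartedSpace (Cm n) X]
    [TopologicalSpace Y] [ChartedSpace (Cm p) Y] {f : X → Y} {Δ : Set X → ℝ}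
    (h : IsFibration (Cm n) (Cm p) f Δ) (hp : HasNeatModel n p f Δ ∨ p = 1) :
    HasNeatModel n p f Δ :=
  hp.elim id (neat1 h)

end Vale.Agent.P281.H364.V
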