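import Vale.Agent.P281.H150.Gen.Core

/-! P281 (helper364): an analytic set whose holomorphic images in `ℂ` are locally constant over a set
`T` has countable image in `T`. -/

open Set Filter Metric
open Vale.Agent.P281.H150.Gen (AnIn exists_order exists_param D D_analytic)
open scoped Topology ContDiff

noncomputable section

namespace Vale.Agent.P281.H364.V

/-- On all the holomorphic images contained in `A ∩ W`, `F` is locally constant at the points where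
its value is in `T`. -/
def LCon {V : Type} [NormedAddCommGroup V] [NormedSpace ℂ V] (W A : Set V) (F : V → ℂ)
    (T : Set ℂ) : Prop :=
  ∀ (V' : Type) [NormedAddCommGroup V'] [NormedSpace ℂ V'] [FiniteDimensional ℂ V']
    (W' : Set V') (φ : V' → V), IsOpen W' → (∀ x ∈ W', AnalyticAt ℂ φ x ∧ φ x ∈ A ∩ W) →
    ∀ x ∈ W', F (φ x) ∈ T → ∀ᶠ y in 𝓝 x, F (φ y) = F (φ x)

theorem LCon.comp {V V₁ : Type} [NormedAddCommGroup V] [NormedSpace ℂ V] [NormedAddCommGroup V₁]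
    [NormedSpace ℂ V₁] {W A : Set V} {F : V → ℂ} {T : Set ℂ}
    (h : LCon W A F T) {W₁ : Set V₁} {ψ : V₁ → V} (hψ : ∀ k ∈ W₁, AnalyticAt ℂ ψ k ∧ ψ k ∈ W) :
    LCon W₁ (ψ ⁻¹' A) (fun v => F (ψ v)) T := by
  intro V' _ _ _ W' φ hW' hφ x hx
  exact h V' W' (fun v => ψ (φ v)) hW' (fun y hy =>
    ⟨AnalyticAt.fun_comp (g := ψ) (f := φ) (hψ _ (hφ y hy).2.2).1 (hφ y hy).1,
      (hφ y hy).2.1, (hψ _ (hφ y hy).2.2).2⟩) x hx

theorem cnt_local {V : Type} [TopologicalSpace V] [SecondCountableTopology V] {α : Type*} {F : V → α}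
    {S : Set V} {T : Set α} (h : ∀ z ∈ S, ∃ N ∈ 𝓝 z, (F '' (S ∩ N) ∩ T).Countable) :
    (F '' S ∩ T).Countable := by
  choose! N hN hS using h
  obtain ⟨t, ht, htc, hcov⟩ := TopologicalSpace.countable_cover_nhdsWithin
    (f := N) (s := S) (fun x hx => mem_nhdsWithin_of_mem_nhds (hN x hx))
  refine (Set.Countable.biUnion htc (fun x hx => hS x (ht hx))).mono ?_
  rintro _ ⟨⟨z, hz, rfl⟩, hT⟩
  obtain ⟨x, hx, hzx⟩ := mem_iUnion₂.1 (hcov hz)
  exact mem_iUnion₂.2 ⟨x, hx, ⟨z, ⟨hz, hzx⟩, rfl⟩, hT⟩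

theorem cnt : ∀ (m : ℕ) (V : Type) [NormedAddCommGroup V] [NormedSpace ℂ V]
    [FiniteDimensional ℂ V], Module.finrank ℂ V = m → ∀ (W A : Set V) (F : V → ℂ) (T : Set ℂ),
    IsOpen W → (∀ z ∈ W, AnalyticAt ℂ F z) → AnIn W A → LCon W A F T →
    (F '' (A ∩ W) ∩ T).Countable := by
  intro m
  induction m using Nat.strong_induction_on with
  | _ m ihm =>
  intro V _ _ _ hm W A F T hW hF hA hN
  have : CompleteSpace V := FiniteDimensional.complete ℂ V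
  have : ProperSpace V := FiniteDimensional.proper ℂ V
  have : SecondCountableTopology V := secondCountable_of_proper
  refine cnt_local fun v hv => ?_
  obtain ⟨U, ι, h, hU, hvU, hh, hAU⟩ := hA v hv.2
  by_cases hcase : ∃ i, ¬ ∀ᶠ z in 𝓝 v, h i z = 0
  · obtain ⟨i, hi⟩ := hcase
    obtain ⟨e, he⟩ := exists_order (hh i v hvU) hi
    obtain ⟨N, hN1, hNo, hvN⟩ := _root_.eventually_nhds_iff.1
      (he.and ((hU.eventually_mem hvU).and (hW.eventually_mem hv.2)))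
    refine ⟨N, hNo.mem_nhds hvN, ?_⟩
    set S : ℕ → Set V := fun k => {z | z ∈ A ∩ W ∩ N ∧ D (h i) e k z = 0 ∧
      fderiv ℂ (D (h i) e k) z ≠ 0} with hT
    have hsub : F '' (A ∩ W ∩ N) ∩ T ⊆ ⋃ k, F '' (S k) ∩ T := by
      rintro _ ⟨⟨z, hz, rfl⟩, hzT⟩
      have hz0 : h i z = 0 := (hAU z (hN1 z hz.2).2.1).1 hz.1.1 i
      obtain ⟨k, hk⟩ := (hN1 z hz.2).1 hz0
      exact mem_iUnion.2 ⟨k, ⟨z, ⟨hz, hk⟩, rfl⟩, hzT⟩
    refine (countable_iUnion (fun k => ?_)).mono hsub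
    refine cnt_local fun z hz => ?_
    have hzA : AnalyticAt ℂ (D (h i) e k) z := D_analytic (hh i z (hN1 z hz.1.2).2.1) k
    obtain ⟨W₁, ψ, hW₁, hψ, hcov⟩ := exists_param hzA hz.2.1 hz.2.2 (hW.mem_nhds hz.1.1.2)
    obtain ⟨N₁, hN₁, hN₁o, hzN₁⟩ := _root_.eventually_nhds_iff.1 hcov
    refine ⟨N₁, hN₁o.mem_nhds hzN₁, ?_⟩
    have hfin : Module.finrank ℂ (LinearMap.ker (fderiv ℂ (D (h i) e k) z : V →ₗ[ℂ] ℂ)) < m := by
      have h1 := LinearMap.finrank_range_add_finrank_ker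
        (fderiv ℂ (D (h i) e k) z : V →ₗ[ℂ] ℂ)
      have h2 : 0 < Module.finrank ℂ
          (LinearMap.range (fderiv ℂ (D (h i) e k) z : V →ₗ[ℂ] ℂ)) := by
        rw [Module.finrank_pos_iff_exists_ne_zero]
        obtain ⟨v', hv'⟩ : ∃ v', fderiv ℂ (D (h i) e k) z v' ≠ 0 := by
          by_contra hcon
          push Not at hcon
          exact hz.2.2 (ContinuousLinearMap.ext hcon)
        refine ⟨⟨_, LinearMap.mem_range_self _ v'⟩, ?_⟩
        intro hcon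
        exact hv' (congrArg Subtype.val hcon)
      omega
    have h3 := ihm _ hfin _ rfl W₁ (ψ ⁻¹' A) (fun x => F (ψ x)) T hW₁
      (fun x hx => AnalyticAt.fun_comp (g := F) (f := ψ) (hF _ (hψ x hx).2) (hψ x hx).1)
      (hA.comp hW₁ hψ) (hN.comp hψ)
    refine h3.mono ?_
    rintro _ ⟨⟨x, ⟨hxT, hxN⟩, rfl⟩, hxT'⟩
    obtain ⟨x₁, hx₁, rfl⟩ := hN₁ x hxN hxT.2.1
    exact ⟨⟨x₁, ⟨hxT.1.1.1, hx₁⟩, rfl⟩, hxT'⟩
  · push Not at hcase
    obtain ⟨ρ, hρ, hB⟩ := Metric.mem_nhds_iff.1 (inter_mem (hU.mem_nhds hvU) (hW.mem_nhds hv.2))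
    have hBA : ∀ z ∈ ball v ρ, z ∈ A ∩ W := by
      intro z hz
      refine ⟨(hAU z (hB hz).1).2 fun i => ?_, (hB hz).2⟩
      have h1 : AnalyticOnNhd ℂ (h i) (ball v ρ) := fun w hw => hh i w (hB hw).1
      exact h1.eqOn_zero_of_preconnected_of_eventuallyEq_zero (convex_ball v ρ).isPreconnected
        (mem_ball_self hρ) (hcase i) hz
    refine ⟨ball v ρ, ball_mem_nhds v hρ, ?_⟩
    rcases (F '' (A ∩ W ∩ ball v ρ) ∩ T).eq_empty_or_nonempty with h0 | ⟨_, ⟨x, hx, rfl⟩, hxT⟩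
    · rw [h0]; exact countable_empty
    · have h1 : ∀ᶠ y in 𝓝 x, F y = F x :=
        hN V (ball v ρ) (fun x => x) isOpen_ball (fun x hx => ⟨analyticAt_id, hBA x hx⟩) x hx.2 hxT
      have hFa : AnalyticOnNhd ℂ F (ball v ρ) := fun z hz => hF z (hB hz).2
      have h2 : EqOn F (fun _ => F x) (ball v ρ) :=
        hFa.eqOn_of_preconnected_of_eventuallyEq (fun z _ => analyticAt_const)
          (convex_ball v ρ).isPreconnected hx.2 h1
      refine (countable_singleton (F x)).mono ?_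
      rintro _ ⟨⟨z, hz, rfl⟩, _⟩
      exact h2 hz.2

end Vale.Agent.P281.H364.V
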