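import Vale.Agent.P281.H364.V.Cnt
import Vale.Agent.P281.H150.Gen.Img
import Vale.Agent.P281.H383.Gen.Ext
import Vale.Agent.P281.H511.Surf.Pt

/-! P281 (helper364): a holomorphic map onto a curve has no exceptional divisors. -/

open Set Filter Metric Vale.Agent.P281 Vale.Agent.P281.J Vale.Agent.P281.H713
open Vale.Agent.P281.H64.Thin (IsThinSet)
open Vale.Agent.P281.H64 (Cm)
open Vale.Agent.P281.H64.Gen (IsAnalyticSet IsSmallSet)
open Vale.Agent.P281.H150.Gen (AnIn holAt_chart holAt_symm thin_empty thin_of_isClosed)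
open scoped Topology ContDiff Manifold

noncomputable section

namespace Vale.Agent.P281.H364.V

section Front

variable {n : ℕ} {X Y : Type} [TopologicalSpace X] [T2Space X] [CompactSpace X]
  [ChartedSpace (Cm n) X] [IsManifold 𝓘(ℂ, Cm n) ω X] [TopologicalSpace Y] [T2Space Y]
  [ChartedSpace (Cm 1) Y] [IsManifold 𝓘(ℂ, Cm 1) ω Y]

theorem eq_of_zero {a b : Cm 1} (h : a 0 = b 0) : a = b := by
  funext i
  rw [Subsingleton.elim i 0]
  exact h

/-- the frontier of the image of a closed analytic set in a curve is countable -/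
theorem frontier_cnt {f : X → Y} (hf : ContMDiff 𝓘(ℂ, Cm n) 𝓘(ℂ, Cm 1) ω f) {D : Set X}
    (hDc : IsClosed D) (hD : IsAnalyticSet (Cm n) D) : (frontier (f '' D)).Countable := by
  have hcl : IsClosed (f '' D) := (hDc.isCompact.image hf.continuous).isClosed
  set T := frontier (f '' D) with hT
  have hTD : T ⊆ f '' D := hcl.frontier_subset
  have hloc : ∀ x : X, ∃ N ∈ 𝓝 x, (f '' (D ∩ N) ∩ T).Countable := by
    intro x
    set φ := chartAt (Cm n) x with hφx
    set ψ := chartAt (Cm 1) (f x) with hψy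
    set W : Set (Cm n) := φ.target ∩ φ.symm ⁻¹' (f ⁻¹' ψ.source) with hW
    have hWo : IsOpen W := by
      refine ContinuousOn.isOpen_inter_preimage φ.continuousOn_symm φ.open_target ?_
      exact ψ.open_source.preimage hf.continuous
    set F : Cm n → ℂ := fun v => ψ (f (φ.symm v)) 0 with hF
    have hFm : ∀ v ∈ W, ContMDiffAt 𝓘(ℂ, Cm n) 𝓘(ℂ, Cm 1) ω (fun v => f (φ.symm v)) v :=
      fun v hv => ContMDiffAt.comp v (hf _) (holAt_symm hv.1)
    have hFa : ∀ v ∈ W, AnalyticAt ℂ F v := by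
      intro v hv
      have h1 : ContMDiffAt 𝓘(ℂ, Cm n) 𝓘(ℂ, Cm 1) ω (fun v => ψ (f (φ.symm v))) v :=
        ContMDiffAt.comp v (holAt_chart hv.2) (hFm v hv)
      have h2 := (contMDiffAt_iff_contDiffAt.1 h1).analyticAt
      exact ((ContinuousLinearMap.proj (R := ℂ) (φ := fun _ : Fin 1 => ℂ) 0).analyticAt _).comp h2
    have hAn : AnIn W (φ.symm ⁻¹' D) := by
      intro v hv
      obtain ⟨U, ι, h, hU, hvU, hh, hAU⟩ := hD (φ.symm v)
      refine ⟨W ∩ φ.symm ⁻¹' U, ι, fun i w => h i (φ.symm w), ?_, ⟨hv, hvU⟩, ?_, ?_⟩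
      · exact ContinuousOn.isOpen_inter_preimage
          (φ.continuousOn_symm.mono inter_subset_left) hWo hU
      · intro i w hw
        have h1 : ContMDiffAt 𝓘(ℂ, Cm n) 𝓘(ℂ, ℂ) ω (fun w => h i (φ.symm w)) w :=
          ContMDiffAt.comp w (hh i _ hw.2) (holAt_symm hw.1.1)
        exact (contMDiffAt_iff_contDiffAt.1 h1).analyticAt
      · intro w hw
        exact hAU _ hw.2
    set T' : Set ℂ := {c | ∃ y ∈ ψ.source, y ∈ T ∧ ψ y 0 = c} with hT'
    have hL : LCon W (φ.symm ⁻¹' D) F T' := by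
      intro V' _ _ _ W' θ hW' hθ x' hx' hxT
      obtain ⟨y, hy, hyT, hyc⟩ := hxT
      have hya : AnalyticAt ℂ (fun v => F (θ v)) x' :=
        AnalyticAt.fun_comp (g := F) (f := θ) (hFa _ (hθ x' hx').2.2) (hθ x' hx').1
      rcases hya.eventually_constant_or_nhds_le_map_nhds with h1 | h1
      · exact h1
      · exfalso
        have h2 : ∀ᶠ c in 𝓝 (F (θ x')), c ∈ (fun v => F (θ v)) '' W' :=
          h1 (image_mem_map (hW'.mem_nhds hx'))
        have hct : Tendsto (fun y' => ψ y' 0) (𝓝 y) (𝓝 (F (θ x'))) := by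
          rw [← hyc]
          exact ((continuous_apply (0 : Fin 1)).continuousAt.comp (ψ.continuousAt hy)).tendsto
        have h3 : ∀ᶠ y' in 𝓝 y, y' ∈ f '' D := by
          filter_upwards [hct.eventually h2, ψ.open_source.mem_nhds hy] with y' h4 h5
          obtain ⟨x'', hx'', h6⟩ := h4
          refine ⟨φ.symm (θ x''), (hθ x'' hx'').2.1, ?_⟩
          exact ψ.injOn (hθ x'' hx'').2.2.2 h5 (eq_of_zero h6)
        have h4 : y ∈ interior (f '' D) := mem_interior_iff_mem_nhds.2 h3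
        exact hyT.2 h4
    have hc := cnt n (Cm n) (by simp) W (φ.symm ⁻¹' D) F T' hWo hFa hAn hL
    refine ⟨φ.source ∩ f ⁻¹' ψ.source, inter_mem (φ.open_source.mem_nhds (mem_chart_source _ _))
      (hf.continuous.continuousAt.preimage_mem_nhds
        (ψ.open_source.mem_nhds (mem_chart_source _ _))), ?_⟩
    refine (hc.image fun c => ψ.symm (fun _ => c)).mono ?_
    rintro _ ⟨⟨x', ⟨hxD, hx1, hx2⟩, rfl⟩, hxT⟩
    have h1 : φ.symm (φ x') = x' := φ.left_inv hx1
    refine ⟨F (φ x'), ⟨⟨φ x', ⟨?_, φ.map_source hx1, ?_⟩, rfl⟩, ?_⟩, ?_⟩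
    · show φ.symm (φ x') ∈ D
      rw [h1]; exact hxD
    · show f (φ.symm (φ x')) ∈ ψ.source
      rw [h1]; exact hx2
    · refine ⟨f x', hx2, hxT, ?_⟩
      show ψ (f x') 0 = ψ (f (φ.symm (φ x'))) 0
      rw [h1]
    · show ψ.symm (fun _ => ψ (f (φ.symm (φ x'))) 0) = f x'
      rw [h1]
      have h2 : (fun _ : Fin 1 => ψ (f x') 0) = ψ (f x') := eq_of_zero rfl
      rw [h2, ψ.left_inv hx2]
  choose N hN hS using hloc
  obtain ⟨t, ht⟩ := CompactSpace.elim_nhds_subcover N hN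
  refine (Set.Countable.biUnion (s := (t : Set X)) t.countable_toSet (fun x _ => hS x)).mono ?_
  intro y hy
  obtain ⟨x, hx, rfl⟩ := hTD hy
  have h1 : x ∈ ⋃ y ∈ t, N y := by rw [ht]; trivial
  obtain ⟨y, hy', hxy⟩ := mem_iUnion₂.1 h1
  exact mem_iUnion₂.2 ⟨y, hy', ⟨x, ⟨hx, hxy⟩, rfl⟩, hy⟩

end Front

section Pts

variable {Y : Type} [TopologicalSpace Y] [T2Space Y] [ChartedSpace (Cm 1) Y]
  [IsManifold 𝓘(ℂ, Cm 1) ω Y]

theorem thin_pt (y : Y) : IsThinSet (Cm 1) ({y} : Set Y) := by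
  refine thin_of_isClosed isClosed_singleton fun x hx => ?_
  obtain rfl : x = y := hx
  refine ⟨H511.Surf.ptEq x, H511.Surf.ptEq_hol x, fun h => ?_, ?_⟩
  · refine H511.Surf.ptEq_dif x ?_
    have h1 : H511.Surf.ptEq x =ᶠ[𝓝 x] fun _ => (0 : ℂ) := h
    unfold J.dif
    rw [h1.mfderiv_eq]
    exact mfderiv_const
  · filter_upwards [H511.Surf.ptEq_iff x] with z hz h
    exact hz.1 h

theorem small_cnt {T : Set Y} (hc : IsClosed T) (hT : T.Countable) : IsSmallSet (Cm 1) T := by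
  refine ⟨hc, ?_⟩
  rcases T.eq_empty_or_nonempty with rfl | hne
  · exact ⟨fun _ => ∅, fun _ => thin_empty, by simp⟩
  · obtain ⟨e, he⟩ := hT.exists_eq_range hne
    refine ⟨fun k => {e k}, fun k => thin_pt _, ?_⟩
    rw [he]
    rintro _ ⟨k, rfl⟩
    exact mem_iUnion.2 ⟨k, rfl⟩

end Pts

theorem prime_dense {E : Type} [NormedAddCommGroup E] [NormedSpace ℂ E] {X : Type}
    [TopologicalSpace X] [ChartedSpace E X] {D : Set X} (h : J.IsPrime E D) :
    D ⊆ closure {x | x ∈ D ∧ ∃ g, J.IsLocalEq E D g x ∧ J.dif E g x ≠ 0} := by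
  intro x hx
  obtain ⟨g, V, hV, hxV, h1, h2, h3⟩ := h.2.1 x
  have h4 := h3 ⟨hx, hxV⟩
  rw [_root_.mem_closure_iff] at h4 ⊢
  intro U hU hxU
  obtain ⟨z, ⟨hzU, hzV⟩, hzD, hz0⟩ := h4 (U ∩ V) (hU.inter hV) ⟨hxU, hxV⟩
  exact ⟨z, hzU, hzD, g, ⟨V, hV, hzV, h1, h2, h3⟩, hz0⟩

theorem prime_analytic {E : Type} [NormedAddCommGroup E] [NormedSpace ℂ E] {X : Type}
    [TopologicalSpace X] [ChartedSpace E X] {D : Set X} (h : J.IsPrime E D) :
    IsAnalyticSet E D := by
  intro x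
  obtain ⟨g, V, hV, hxV, h1, h2, h3⟩ := h.2.1 x
  exact ⟨V, Unit, fun _ => g, hV, hxV, fun _ z hz => h1 z hz, fun z hz =>
    ⟨fun h _ => (h2 z hz).1 h, fun h => (h2 z hz).2 (h ())⟩⟩

section Main

variable {n : ℕ} {X Y : Type} [TopologicalSpace X] [T2Space X] [CompactSpace X]
  [ChartedSpace (Cm n) X] [IsManifold 𝓘(ℂ, Cm n) ω X] [TopologicalSpace Y] [T2Space Y]
  [PreconnectedSpace Y] [CompactSpace Y]
  [ChartedSpace (Cm 1) Y] [IsManifold 𝓘(ℂ, Cm 1) ω Y]

/-- The image of a prime divisor in a curve is the curve or a point. -/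
theorem image_prime {f : X → Y} (hf : ContMDiff 𝓘(ℂ, Cm n) 𝓘(ℂ, Cm 1) ω f) {D : Set X}
    (hD : J.IsPrime (Cm n) D) : f '' D = univ ∨ ∃ y, f '' D = {y} := by
  have hcl : IsClosed (f '' D) := (hD.1.isCompact.image hf.continuous).isClosed
  have hT := frontier_cnt hf hD.1 (prime_analytic hD)
  have hpre := (Vale.Agent.P281.H383.Gen.compl 1 Y _ (small_cnt isClosed_frontier hT)).2
  by_cases hint : (interior (f '' D)).Nonempty
  · left
    by_contra hne
    obtain ⟨y, hy⟩ := (ne_univ_iff_exists_notMem _).1 hne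
    obtain ⟨x, hx⟩ := hint
    have h1 : (frontier (f '' D))ᶜ ⊆ interior (f '' D) ∪ (f '' D)ᶜ := by
      intro z hz
      by_cases hz1 : z ∈ f '' D
      · left
        by_contra hz2
        exact hz ⟨subset_closure hz1, hz2⟩
      · exact Or.inr hz1
    obtain ⟨z, _, hz1, hz2⟩ := hpre _ _ isOpen_interior hcl.isOpen_compl h1
      ⟨x, fun h => h.2 hx, hx⟩ ⟨y, fun h => hy (hcl.frontier_subset h), hy⟩
    exact hz2 (interior_subset hz1)
  · right
    have h0 : interior (f '' D) = ∅ := not_nonempty_iff_eq_empty.1 hint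
    have h1 : (f '' D).Countable := by
      have : frontier (f '' D) = f '' D := by
        rw [hcl.frontier_eq, h0, sdiff_empty]
      rwa [this] at hT
    set R := {x | x ∈ D ∧ ∃ g, J.IsLocalEq (Cm n) D g x ∧ J.dif (Cm n) g x ≠ 0} with hR
    have hRD : R ⊆ D := fun x hx => hx.1
    obtain ⟨x₀, hx₀⟩ := hD.2.2.1
    have h2 : ∀ x ∈ R, f x = f x₀ := by
      intro x hx
      by_contra hne
      obtain ⟨g, hg0, hg1, _⟩ := exists_continuous_zero_one_of_isClosed
        (isClosed_singleton (x := f x)) (isClosed_singleton (x := f x₀))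
        (disjoint_singleton.2 hne)
      have h3 : IsPreconnected ((fun x => g (f x)) '' R) :=
        hD.2.2.isPreconnected.image _ (g.continuous.comp hf.continuous).continuousOn
      have h4 : ((fun x => g (f x)) '' R).Countable := by
        refine (h1.image g).mono ?_
        rintro _ ⟨z, hz, rfl⟩
        exact ⟨f z, ⟨z, hRD hz, rfl⟩, rfl⟩
      have h5 := h4.isTotallyDisconnected _ subset_rfl h3 (mem_image_of_mem _ hx)
        (mem_image_of_mem _ hx₀)
      have h6 : g (f x) = 0 := hg0 rfl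
      have h7 : g (f x₀) = 1 := hg1 rfl
      have h8 : g (f x) = g (f x₀) := h5
      rw [h6, h7] at h8
      exact zero_ne_one h8
    refine ⟨f x₀, subset_antisymm ?_ ?_⟩
    · rintro _ ⟨x, hx, rfl⟩
      have h3 : x ∈ closure R := prime_dense hD hx
      have h4 : IsClosed (f ⁻¹' {f x₀}) := isClosed_singleton.preimage hf.continuous
      exact (closure_minimal (fun z hz => h2 z hz) h4) h3
    · rintro _ rfl
      exact ⟨x₀, hRD hx₀, rfl⟩

/-- **No exceptional divisors over a curve.** -/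
theorem noExc_curve {f : X → Y} (hf : ContMDiff 𝓘(ℂ, Cm n) 𝓘(ℂ, Cm 1) ω f) (D : Set X)
    (hD : J.IsPrime (Cm n) D) :
    closure (f '' D) = univ ∨ J.IsPrime (Cm 1) (closure (f '' D)) := by
  rcases image_prime hf hD with h | ⟨y, h⟩
  · left; rw [h, closure_univ]
  · right; rw [h, closure_singleton]; exact H511.Surf.isPrime_pt y

end Main

end Vale.Agent.P281.H364.V
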