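import Vale.Agent.P281.H364.V.Curve
import Vale.Agent.P281.H511.Surf.Defs

/-! P281 (helper364): a fibration over a curve has no exceptional divisors. -/

open Set Filter Vale.Agent.P281
open Vale.Agent.P281.H713.TZ.S (Cm)
open Vale.Agent.P281.H511.Surf (IsFibration)
open scoped Topology ContDiff Manifold

namespace Vale.Agent.P281.H364.V

/-- **No exceptional divisors over a curve**: the prime divisors `D` of `X` are mapped onto `Y` or
prime divisors (points). The conclusion is `NoExc n 1 f`. -/
theorem noExc_fib {n : ℕ} {X Y : Type} [TopologicalSpace X] [ChartedSpace (Cm n) X]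
    [TopologicalSpace Y] [ChartedSpace (Cm 1) Y] {f : X → Y} {Δ : Set X → ℝ}
    (h : IsFibration (Cm n) (Cm 1) f Δ) (D : Set X) (hD : J.IsPrime (Cm n) D) :
    closure (f '' D) = univ ∨ J.IsPrime (Cm 1) (closure (f '' D)) := by
  have : T2Space X := h.hausdorff.1
  have : T2Space Y := h.hausdorff.2
  have : CompactSpace X := h.compact
  have : ConnectedSpace X := h.connected
  have : IsManifold 𝓘(ℂ, Cm n) ω X := h.manifold.1
  have : IsManifold 𝓘(ℂ, Cm 1) ω Y := h.manifold.2
  have hs : Function.Surjective f := fun y => (h.fibres y).nonempty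
  have : PreconnectedSpace Y := by
    rw [preconnectedSpace_iff_univ, ← hs.range_eq]
    exact isPreconnected_range h.hol.continuous
  have : CompactSpace Y := by
    rw [← isCompact_univ_iff, ← hs.range_eq]
    exact isCompact_range h.hol.continuous
  exact noExc_curve h.hol D hD

end Vale.Agent.P281.H364.V
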